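import Mathlib

set_option autoImplicit false

/-!
# P181, TR: block R2, the labels
-/

namespace Vale.Agent.P181.TR.H258

open Finset

/-- The labels: sizes `t / a / Q + 4 + (Q M + r) Y + i / M`, label one in the block
`[Y n, Y n + Y)`, `n = Q (i mod M) + q`, labels `2, .., r - 1` below `Y`, the last label is the
rest; pigeonhole over the sums `κ`. -/
def LabR : Prop := ∀ (a Q M Y r t : ℕ), 1 ≤ a → 1 ≤ Q → 1 ≤ M → 1 ≤ Y → 2 ≤ r →
  t / a / Q + 4 + (Q * M + r) * Y + a / M ≤ a →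
  ∃ (u s : Fin a × Fin Q → ℕ) (κ : Fin r → ℕ) (AS : Finset (Fin a × Fin Q → Fin r → ℕ)),
    (∀ i : Fin a, ∑ q, u (i, q) = t / a + if (i : ℕ) < t % a then 1 else 0) ∧
    (∀ j, 2 ≤ s j ∧ s j ≤ t / a / Q + 4 + (Q * M + r) * Y + a / M) ∧
    (∀ α ∈ AS, ∀ j, u j + ∑ i, α j i = s j) ∧ (∀ α ∈ AS, ∀ i, ∑ j, α j i = κ i) ∧
    (∀ α ∈ AS, ∀ α' ∈ AS, ∀ j j', s j = s j' → j ≠ j' → α j ≠ α' j') ∧
    ∑ i, κ i ≤ a * Q * (4 + (Q * M + r) * Y + a / M) ∧
    Y ^ ((r - 1) * (a * Q)) ≤ (a ^ 2 * Q + 1) ^ r * AS.card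

lemma sum_cut (n Q : ℕ) (hQ : 1 ≤ Q) :
    ∑ q : Fin Q, (n / Q + if (q : ℕ) < n % Q then 1 else 0) = n := by
  rw [Finset.sum_add_distrib, Finset.sum_const, Finset.card_univ, Fintype.card_fin, smul_eq_mul]
  have h1 : ∑ q : Fin Q, (if (q : ℕ) < n % Q then 1 else 0) = n % Q := by
    rw [Fin.sum_univ_eq_sum_range (fun i => if i < n % Q then 1 else 0) Q, ← Finset.sum_filter,
      Finset.sum_const, smul_eq_mul, mul_one]
    have : (Finset.range Q).filter (fun i => i < n % Q) = Finset.range (n % Q) := by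
      ext i
      simp only [Finset.mem_filter, Finset.mem_range]
      have := Nat.mod_lt n (by omega : Q > 0)
      omega
    rw [this, Finset.card_range]
  rw [h1]
  exact Nat.div_add_mod n Q

variable {a Q : ℕ}

/-- the number of a letter in its block -/
def nj (M : ℕ) (j : Fin a × Fin Q) : ℕ := Q * ((j.1 : ℕ) % M) + (j.2 : ℕ)

lemma nj_lt {M : ℕ} (hM : 1 ≤ M) (j : Fin a × Fin Q) : nj M j + 1 ≤ Q * M := by
  unfold nj
  have h1 : (j.1 : ℕ) % M + 1 ≤ M := Nat.mod_lt _ (by omega)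
  have h2 : (j.2 : ℕ) + 1 ≤ Q := j.2.2
  calc Q * ((j.1 : ℕ) % M) + (j.2 : ℕ) + 1 ≤ Q * ((j.1 : ℕ) % M) + Q := by omega
    _ = Q * ((j.1 : ℕ) % M + 1) := by ring
    _ ≤ Q * M := Nat.mul_le_mul_left _ h1

/-- the first labels -/
def lb (M Y : ℕ) {r : ℕ} (y : Fin a × Fin Q → Fin r → Fin Y) (j : Fin a × Fin Q) (i : Fin r) : ℕ :=
  (if (i : ℕ) = 0 then Y * nj M j else 0) + (y j i : ℕ)

/-- all labels -/
def al (M Y : ℕ) (s u : Fin a × Fin Q → ℕ) {r : ℕ} (y : Fin a × Fin Q → Fin r → Fin Y)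
    (j : Fin a × Fin Q) : Fin (r + 1) → ℕ :=
  Fin.snoc (α := fun _ => ℕ) (lb M Y y j) (s j - u j - ∑ i, lb M Y y j i)

lemma sum_lb {M Y r : ℕ} (hM : 1 ≤ M) (y : Fin a × Fin Q → Fin (r + 1) → Fin Y)
    (j : Fin a × Fin Q) : ∑ i, lb M Y y j i ≤ (Q * M + r) * Y := by
  unfold lb
  rw [Finset.sum_add_distrib]
  have h1 : ∑ i : Fin (r + 1), (if (i : ℕ) = 0 then Y * nj M j else 0) = Y * nj M j := by
    rw [Fin.sum_univ_succ]
    simp
  have h2 : ∑ i : Fin (r + 1), (y j i : ℕ) ≤ (r + 1) * Y := by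
    calc ∑ i : Fin (r + 1), (y j i : ℕ) ≤ ∑ _i : Fin (r + 1), Y :=
          Finset.sum_le_sum fun i _ => (y j i).2.le
      _ = (r + 1) * Y := by simp
  rw [h1]
  have h3 := nj_lt hM j
  calc Y * nj M j + ∑ i : Fin (r + 1), (y j i : ℕ) ≤ Y * nj M j + (r + 1) * Y := by omega
    _ = (nj M j + 1 + r) * Y := by ring
    _ ≤ (Q * M + r) * Y := Nat.mul_le_mul_right _ (by omega)

/-- **(R2)** -/
theorem labR : LabR := by
  intro a Q M Y r t ha hQ hM hY hr hle
  obtain ⟨r1, rfl⟩ : ∃ r1, r = r1 + 2 := ⟨r - 2, by omega⟩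
  obtain ⟨D, hD⟩ : ∃ D, t / a / Q = D := ⟨_, rfl⟩
  obtain ⟨E, hE⟩ : ∃ E, (Q * M + (r1 + 2)) * Y = E := ⟨_, rfl⟩
  obtain ⟨G, hG⟩ : ∃ G, a / M = G := ⟨_, rfl⟩
  obtain ⟨gM, hgM⟩ : ∃ gM : ℕ → ℕ, ∀ i, i / M = gM i := ⟨fun i => i / M, fun _ => rfl⟩
  rw [hD, hE, hG] at hle
  simp only [hD, hE, hG]
  let f : Fin a → ℕ := fun i => t / a + if (i : ℕ) < t % a then 1 else 0
  let u : Fin a × Fin Q → ℕ := fun j => f j.1 / Q + if (j.2 : ℕ) < f j.1 % Q then 1 else 0
  let s : Fin a × Fin Q → ℕ := fun j => D + 4 + E + gM (j.1 : ℕ)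
  have hf1 : ∀ i, t / a ≤ f i := fun i => Nat.le_add_right _ _
  have hf2 : ∀ i, f i ≤ t / a + 1 := fun i => by
    show t / a + (if (i : ℕ) < t % a then 1 else 0) ≤ _
    split_ifs <;> omega
  have hu1 : ∀ j, D ≤ u j := fun j => by
    rw [← hD]
    exact (Nat.div_le_div_right (hf1 j.1)).trans (Nat.le_add_right _ _)
  have hu2 : ∀ j, u j ≤ D + 2 := fun j => by
    have h1 : f j.1 / Q ≤ D + 1 := by
      rw [← hD]
      calc f j.1 / Q ≤ (t / a + 1) / Q := Nat.div_le_div_right (hf2 j.1)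
        _ ≤ (t / a + Q) / Q := Nat.div_le_div_right (by omega)
        _ = t / a / Q + 1 := Nat.add_div_right _ (by omega)
    have h2 : (if (j.2 : ℕ) < f j.1 % Q then 1 else 0) ≤ 1 := by split_ifs <;> omega
    exact (Nat.add_le_add h1 h2).trans (by omega)
  have hs1 : ∀ j, s j ≤ D + 4 + E + G := fun j => by
    have h1 : gM (j.1 : ℕ) ≤ G := by
      rw [← hgM, ← hG]
      exact Nat.div_le_div_right j.1.2.le
    exact Nat.add_le_add_left h1 _
  have hs2 : ∀ j, u j + (Q * M + r1) * Y ≤ s j := fun j => by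
    have h1 := hu2 j
    have h2 : (Q * M + r1) * Y ≤ E := by
      rw [← hE]
      exact Nat.mul_le_mul_right _ (by omega)
    calc u j + (Q * M + r1) * Y ≤ (D + 2) + E := Nat.add_le_add h1 h2
      _ ≤ D + 4 + E + gM (j.1 : ℕ) := by omega
  -- the family
  let A : (Fin a × Fin Q → Fin (r1 + 1) → Fin Y) → Fin a × Fin Q → Fin (r1 + 2) → ℕ :=
    fun y => al M Y s u y
  have hA1 : ∀ y j, u j + ∑ i, A y j i = s j := fun y j => by
    have h1 := sum_lb (Y := Y) hM y j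
    have h2 := hs2 j
    show u j + ∑ i, al M Y s u y j i = s j
    unfold al
    rw [Fin.sum_univ_castSucc]
    simp only [Fin.snoc_castSucc, Fin.snoc_last]
    omega
  have hAc : ∀ y j (i : Fin (r1 + 1)), A y j i.castSucc = lb M Y y j i := fun y j i => by
    show al M Y s u y j i.castSucc = _
    unfold al
    rw [Fin.snoc_castSucc]
  have hAinj : Function.Injective A := by
    intro y y' h
    funext j i
    have h1 := hAc y j i
    rw [h, hAc y' j i] at h1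
    unfold lb at h1
    exact Fin.ext (by omega)
  have hAle : ∀ y j i, A y j i ≤ a := fun y j i => by
    have h1 : A y j i ≤ ∑ i, A y j i :=
      Finset.single_le_sum (f := fun i => A y j i) (fun _ _ => Nat.zero_le _) (Finset.mem_univ i)
    have h2 := hA1 y j
    have h3 := hs1 j
    omega
  have hsum : ∀ y i, ∑ j, A y j i < a ^ 2 * Q + 1 := fun y i => by
    have h1 : ∑ j, A y j i ≤ ∑ _j : Fin a × Fin Q, a := Finset.sum_le_sum fun j _ => hAle y j i
    rw [Finset.sum_const, Finset.card_univ, Fintype.card_prod, Fintype.card_fin, Fintype.card_fin,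
      smul_eq_mul] at h1
    calc ∑ j, A y j i ≤ a * Q * a := h1
      _ = a ^ 2 * Q := by ring
      _ < _ := Nat.lt_succ_self _
  let K : (Fin a × Fin Q → Fin (r1 + 1) → Fin Y) → (Fin (r1 + 2) → Fin (a ^ 2 * Q + 1)) :=
    fun y i => ⟨∑ j, A y j i, hsum y i⟩
  have hcard : Fintype.card (Fin a × Fin Q → Fin (r1 + 1) → Fin Y) = Y ^ ((r1 + 1) * (a * Q)) := by
    simp only [Fintype.card_fun, Fintype.card_prod, Fintype.card_fin]
    rw [← pow_mul]
  have hcard2 : Fintype.card (Fin (r1 + 2) → Fin (a ^ 2 * Q + 1)) = (a ^ 2 * Q + 1) ^ (r1 + 2) := by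
    simp only [Fintype.card_fun, Fintype.card_fin]
  classical
  obtain ⟨κ0, -, hκ0⟩ : ∃ κ0 ∈ (Finset.univ : Finset (Fin (r1 + 2) → Fin (a ^ 2 * Q + 1))),
      Y ^ ((r1 + 1) * (a * Q)) ≤
        (a ^ 2 * Q + 1) ^ (r1 + 2) * (Finset.univ.filter fun y => K y = κ0).card := by
    apply Finset.exists_le_of_sum_le
    · have : Nonempty (Fin (r1 + 2) → Fin (a ^ 2 * Q + 1)) := ⟨fun _ => ⟨0, by omega⟩⟩
      exact Finset.univ_nonempty
    · rw [Finset.sum_const, Finset.card_univ, hcard2, smul_eq_mul, ← Finset.mul_sum]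
      refine Nat.mul_le_mul_left _ (le_of_eq ?_)
      rw [← hcard, ← Finset.card_univ]
      exact Finset.card_eq_sum_card_fiberwise fun y _ => Finset.mem_univ _
  refine ⟨u, s, fun i => (κ0 i : ℕ), (Finset.univ.filter fun y => K y = κ0).image A, ?_, ?_, ?_, ?_,
    ?_, ?_, ?_⟩
  · intro i
    exact sum_cut (f i) Q hQ
  · intro j
    refine ⟨?_, hs1 j⟩
    show 2 ≤ D + 4 + E + gM (j.1 : ℕ)
    omega
  · intro α hα j
    obtain ⟨y, -, rfl⟩ := Finset.mem_image.1 hα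
    exact hA1 y j
  · intro α hα i
    obtain ⟨y, hy, rfl⟩ := Finset.mem_image.1 hα
    have h1 := (Finset.mem_filter.1 hy).2
    rw [← h1]
  · intro α hα α' hα' j j' hss hjj heq
    obtain ⟨y, -, rfl⟩ := Finset.mem_image.1 hα
    obtain ⟨y', -, rfl⟩ := Finset.mem_image.1 hα'
    apply hjj
    have h1 : (j.1 : ℕ) / M = (j'.1 : ℕ) / M := by
      rw [hgM, hgM]
      exact Nat.add_left_cancel hss
    have h2 := congrFun heq (Fin.castSucc 0)
    rw [hAc, hAc] at h2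
    unfold lb at h2
    simp only [Fin.val_zero, if_true] at h2
    have h3 : nj M j = nj M j' := by
      have e1 : (Y * nj M j + (y j 0 : ℕ)) / Y = nj M j := by
        rw [Nat.mul_add_div (by omega), Nat.div_eq_of_lt (y j 0).2, add_zero]
      have e2 : (Y * nj M j' + (y' j' 0 : ℕ)) / Y = nj M j' := by
        rw [Nat.mul_add_div (by omega), Nat.div_eq_of_lt (y' j' 0).2, add_zero]
      rw [← e1, ← e2, h2]
    unfold nj at h3
    have h4 : (j.1 : ℕ) % M = (j'.1 : ℕ) % M := by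
      have e1 : (Q * ((j.1 : ℕ) % M) + (j.2 : ℕ)) / Q = (j.1 : ℕ) % M := by
        rw [Nat.mul_add_div (by omega), Nat.div_eq_of_lt j.2.2, add_zero]
      have e2 : (Q * ((j'.1 : ℕ) % M) + (j'.2 : ℕ)) / Q = (j'.1 : ℕ) % M := by
        rw [Nat.mul_add_div (by omega), Nat.div_eq_of_lt j'.2.2, add_zero]
      rw [← e1, ← e2, h3]
    have h5 : (j.2 : ℕ) = (j'.2 : ℕ) := by
      rw [h4] at h3
      omega
    have h6 : (j.1 : ℕ) = (j'.1 : ℕ) := by
      rw [← Nat.div_add_mod (j.1 : ℕ) M, h1, h4, Nat.div_add_mod]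
    exact Prod.ext (Fin.ext h6) (Fin.ext h5)
  · have hpos : 0 < (Finset.univ.filter fun y => K y = κ0).card := by
      by_contra h0
      have h1 : (Finset.univ.filter fun y => K y = κ0).card = 0 := by omega
      rw [h1, mul_zero] at hκ0
      have h2 : 0 < Y ^ ((r1 + 1) * (a * Q)) := by positivity
      omega
    obtain ⟨y, hy⟩ := Finset.card_pos.1 hpos
    have h1 := (Finset.mem_filter.1 hy).2
    rw [← h1]
    show ∑ i, ∑ j, A y j i ≤ _
    rw [Finset.sum_comm]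
    calc ∑ j, ∑ i, A y j i ≤ ∑ _j : Fin a × Fin Q, (4 + E + G) := by
          refine Finset.sum_le_sum fun j _ => ?_
          have h2 := hA1 y j
          have h3 := hs1 j
          have h4 := hu1 j
          omega
      _ = a * Q * (4 + E + G) := by
          rw [Finset.sum_const, Finset.card_univ, Fintype.card_prod, Fintype.card_fin,
            Fintype.card_fin, smul_eq_mul]
  · rw [Finset.card_image_of_injective _ hAinj]
    exact hκ0

end Vale.Agent.P181.TR.H258
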